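import Mathlib

/-! P110: Littlewood polynomials that are Kronecker products. -/

namespace Vale.Agent.P110

open Finset Complex

/-- the value at `z` of the polynomial with coefficients `a 0, …, a (n-1)` -/
noncomputable def ev (a : ℕ → ℝ) (n : ℕ) (z : ℂ) : ℂ := ∑ k ∈ range n, (a k : ℂ) * z ^ k

/-- `a 0, …, a (n-1)` are signs -/
def IsLittlewood (a : ℕ → ℝ) (n : ℕ) : Prop := ∀ k < n, a k = 1 ∨ a k = -1

/-- the polynomial with coefficients `a 0, …, a (n-1)` is flat up to `c` on the unit circle -/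
def Flat (a : ℕ → ℝ) (n : ℕ) (c : ℝ) : Prop :=
  ∀ z : ℂ, ‖z‖ = 1 → (1 - c) * Real.sqrt n ≤ ‖ev a n z‖ ∧ ‖ev a n z‖ ≤ (1 + c) * Real.sqrt n

/-- coefficients of `A(z) B(z^l)`, `A` of length `l` with coefficients `a`, `B` with
coefficients `b` -/
def kron (l : ℕ) (a b : ℕ → ℝ) (n : ℕ) : ℝ := a (n % l) * b (n / l)

theorem ev_kron {l : ℕ} (hl : 0 < l) (a b : ℕ → ℝ) (m : ℕ) (z : ℂ) :
    ev (kron l a b) (l * m) z = ev a l z * ev b m (z ^ l) := by
  induction m with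
  | zero => simp [ev]
  | succ m ih =>
    unfold ev at ih ⊢
    rw [Nat.mul_succ, Finset.sum_range_add, ih, Finset.sum_range_succ, mul_add]
    congr 1
    rw [Finset.sum_mul]
    refine Finset.sum_congr rfl fun i hi => ?_
    have hi' : i < l := Finset.mem_range.1 hi
    have h1 : (l * m + i) % l = i := by
      rw [Nat.mul_add_mod, Nat.mod_eq_of_lt hi']
    have h2 : (l * m + i) / l = m := by
      rw [Nat.mul_add_div hl, Nat.div_eq_of_lt hi', add_zero]
    rw [kron, h1, h2, pow_add, pow_mul]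
    push_cast
    ring

/-- the root of unity -/
noncomputable def zt (M : ℕ) : ℂ := Complex.exp (2 * Real.pi * I / M)

theorem zt_prim {M : ℕ} (hM : M ≠ 0) : IsPrimitiveRoot (zt M) M :=
  Complex.isPrimitiveRoot_exp M hM

theorem orth {M : ℕ} (hM : M ≠ 0) (e : ℤ) :
    ∑ j ∈ range M, ((zt M) ^ j) ^ e = if (M : ℤ) ∣ e then (M : ℂ) else 0 := by
  have hp := zt_prim hM
  have hc : ∀ j : ℕ, ((zt M) ^ j) ^ e = ((zt M) ^ e) ^ j := by
    intro j
    rw [← zpow_natCast, ← zpow_natCast, ← zpow_mul, ← zpow_mul, mul_comm]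
  simp_rw [hc]
  split_ifs with h
  · rw [(hp.zpow_eq_one_iff_dvd e).2 h]
    simp
  · have h1 : (zt M) ^ e ≠ 1 := fun h' => h ((hp.zpow_eq_one_iff_dvd e).1 h')
    have h2 : ((zt M) ^ e) ^ M = 1 := by
      rw [← zpow_natCast, ← zpow_mul, mul_comm, zpow_mul, zpow_natCast, hp.pow_eq_one, one_zpow]
    have h3 := mul_neg_geom_sum ((zt M) ^ e) M
    rw [h2, sub_self] at h3
    exact (mul_eq_zero.1 h3).resolve_left (sub_ne_zero.2 (Ne.symm h1))

theorem zt_norm {M : ℕ} (hM : M ≠ 0) : ‖zt M‖ = 1 := (zt_prim hM).norm'_eq_one hM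

theorem normSq_ev (a : ℕ → ℝ) (n : ℕ) {z : ℂ} (hz : ‖z‖ = 1) :
    ((‖ev a n z‖ ^ 2 : ℝ) : ℂ) =
      ∑ k ∈ range n, ∑ l ∈ range n, (a k : ℂ) * a l * z ^ ((k : ℤ) - l) := by
  have hz0 : z ≠ 0 := by
    rintro rfl
    simp at hz
  have hc : (starRingEnd ℂ) z = z⁻¹ := by
    rw [Complex.inv_def, Complex.normSq_eq_norm_sq, hz]
    simp
  rw [← Complex.normSq_eq_norm_sq, ← Complex.mul_conj]
  unfold ev
  rw [map_sum, Finset.sum_mul_sum]
  refine Finset.sum_congr rfl fun k _ => Finset.sum_congr rfl fun l _ => ?_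
  rw [map_mul, map_pow, hc, Complex.conj_ofReal, zpow_sub₀ hz0, zpow_natCast, zpow_natCast,
    inv_pow, div_eq_mul_inv]
  ring

theorem avg_ev (a : ℕ → ℝ) (n : ℕ) {z : ℂ} (hz : ‖z‖ = 1) {M : ℕ} (hM : M ≠ 0) (e : ℤ) :
    ∑ j ∈ range M, ((‖ev a n ((zt M) ^ j * z)‖ ^ 2 : ℝ) : ℂ) * ((zt M) ^ j) ^ e =
      ∑ k ∈ range n, ∑ l ∈ range n, (a k : ℂ) * a l * z ^ ((k : ℤ) - l) *
        (if (M : ℤ) ∣ (k : ℤ) - l + e then (M : ℂ) else 0) := by
  have hzt : zt M ≠ 0 := (zt_prim hM).ne_zero hM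
  have h1 : ∀ j, ((‖ev a n ((zt M) ^ j * z)‖ ^ 2 : ℝ) : ℂ) * ((zt M) ^ j) ^ e =
      ∑ k ∈ range n, ∑ l ∈ range n, (a k : ℂ) * a l * z ^ ((k : ℤ) - l) *
        ((zt M) ^ j) ^ ((k : ℤ) - l + e) := by
    intro j
    rw [normSq_ev a n (by rw [norm_mul, norm_pow, zt_norm hM, one_pow, hz, one_mul]),
      Finset.sum_mul]
    refine Finset.sum_congr rfl fun k _ => ?_
    rw [Finset.sum_mul]
    refine Finset.sum_congr rfl fun l _ => ?_
    rw [mul_zpow, zpow_add₀ (pow_ne_zero _ hzt)]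
    ring
  simp_rw [h1]
  rw [Finset.sum_comm]
  refine Finset.sum_congr rfl fun k _ => ?_
  rw [Finset.sum_comm]
  refine Finset.sum_congr rfl fun l _ => ?_
  rw [← Finset.mul_sum, orth hM]

theorem parseval {a : ℕ → ℝ} {l : ℕ} (ha : IsLittlewood a l) (hl : l ≠ 0) {z : ℂ}
    (hz : ‖z‖ = 1) : ∑ j ∈ range l, ‖ev a l ((zt l) ^ j * z)‖ ^ 2 = (l : ℝ) ^ 2 := by
  have h := avg_ev a l hz hl 0
  simp only [zpow_zero, mul_one, add_zero] at h
  have h2 : ∀ k ∈ range l, ∑ i ∈ range l, (a k : ℂ) * a i * z ^ ((k : ℤ) - i) *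
      (if (l : ℤ) ∣ (k : ℤ) - i then (l : ℂ) else 0) = l := by
    intro k hk
    have hk' := Finset.mem_range.1 hk
    rw [Finset.sum_eq_single k]
    · have : (a k : ℂ) * a k = 1 := by
        rcases ha k hk' with h | h <;> simp [h]
      simp [this]
    · intro i hi hik
      have hi' := Finset.mem_range.1 hi
      rw [if_neg, mul_zero]
      intro hd
      apply hik
      have := Int.eq_zero_of_abs_lt_dvd hd (by rw [abs_lt]; constructor <;> omega)
      omega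
    · intro hh; exact absurd hk hh
  rw [Finset.sum_congr rfl h2, Finset.sum_const, Finset.card_range, nsmul_eq_mul] at h
  have h3 : ((∑ j ∈ range l, ‖ev a l ((zt l) ^ j * z)‖ ^ 2 : ℝ) : ℂ) = ((l : ℝ) ^ 2 : ℝ) := by
    push_cast
    push_cast at h
    rw [h]; ring
  exact_mod_cast h3

/-- A Littlewood polynomial of length at least two is not flat: `||A|² - l| ≥ 1` somewhere. -/
theorem not_const {a : ℕ → ℝ} {l : ℕ} (ha : IsLittlewood a l) (hl : 2 ≤ l) :
    ∃ z : ℂ, ‖z‖ = 1 ∧ 1 ≤ |‖ev a l z‖ ^ 2 - l| := by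
  set M := 2 * l - 1 with hM
  have hM0 : M ≠ 0 := by omega
  have h := avg_ev a l (z := 1) (by simp) hM0 (-((l : ℤ) - 1))
  simp only [mul_one, one_zpow] at h
  have hM' : (M : ℤ) = 2 * l - 1 := by rw [hM]; omega
  have h2 : ∑ k ∈ range l, ∑ i ∈ range l, (a k : ℂ) * a i *
      (if (M : ℤ) ∣ (k : ℤ) - i + -((l : ℤ) - 1) then (M : ℂ) else 0) =
      a (l - 1) * a 0 * M := by
    rw [Finset.sum_eq_single (l - 1)]
    · rw [Finset.sum_eq_single 0]
      · have e : ((l - 1 : ℕ) : ℤ) - (0 : ℕ) + -((l : ℤ) - 1) = 0 := by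
          rw [Nat.cast_sub (by omega)]; push_cast; ring
        rw [e, if_pos (dvd_zero _)]
      · intro i hi hi0
        have hi' := Finset.mem_range.1 hi
        rw [if_neg, mul_zero]
        intro hd
        have := Int.eq_zero_of_abs_lt_dvd hd (by
          rw [Nat.cast_sub (by omega), abs_lt]; constructor <;> push_cast <;> omega)
        rw [Nat.cast_sub (by omega)] at this
        push_cast at this
        omega
      · intro hh; exact absurd (Finset.mem_range.2 (by omega)) hh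
    · intro k hk hkl
      refine Finset.sum_eq_zero fun i hi => ?_
      have hk' := Finset.mem_range.1 hk
      have hi' := Finset.mem_range.1 hi
      rw [if_neg, mul_zero]
      intro hd
      have := Int.eq_zero_of_abs_lt_dvd hd (by rw [abs_lt]; constructor <;> omega)
      omega
    · intro hh; exact absurd (Finset.mem_range.2 (by omega)) hh
  rw [h2] at h
  have h3 := orth hM0 (-((l : ℤ) - 1))
  rw [if_neg (by
    intro hd
    have := Int.eq_zero_of_abs_lt_dvd hd (by rw [abs_lt]; constructor <;> omega)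
    omega)] at h3
  by_contra hcon
  push Not at hcon
  have h4 : ∑ j ∈ range M, (((‖ev a l ((zt M) ^ j)‖ ^ 2 - l : ℝ) : ℂ)) *
      ((zt M) ^ j) ^ (-((l : ℤ) - 1)) = a (l - 1) * a 0 * M := by
    rw [← h]
    have : ∀ j, (((‖ev a l ((zt M) ^ j)‖ ^ 2 - l : ℝ) : ℂ)) *
        ((zt M) ^ j) ^ (-((l : ℤ) - 1)) =
        ((‖ev a l ((zt M) ^ j)‖ ^ 2 : ℝ) : ℂ) * ((zt M) ^ j) ^ (-((l : ℤ) - 1)) -
        l * ((zt M) ^ j) ^ (-((l : ℤ) - 1)) := by
      intro j; push_cast; ring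
    simp_rw [this, Finset.sum_sub_distrib, ← Finset.mul_sum, h3]
    simp
  have h5 : ‖((a (l - 1) : ℂ) * a 0 * M)‖ = M := by
    have e1 : ‖(a (l - 1) : ℂ)‖ = 1 := by
      rcases ha (l - 1) (by omega) with h | h <;> simp [h]
    have e2 : ‖(a 0 : ℂ)‖ = 1 := by
      rcases ha 0 (by omega) with h | h <;> simp [h]
    rw [norm_mul, norm_mul, e1, e2]
    simp
  have h6 : (M : ℝ) < M := by
    calc (M : ℝ) = ‖∑ j ∈ range M, (((‖ev a l ((zt M) ^ j)‖ ^ 2 - l : ℝ) : ℂ)) *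
          ((zt M) ^ j) ^ (-((l : ℤ) - 1))‖ := by rw [h4, h5]
      _ ≤ ∑ j ∈ range M, ‖(((‖ev a l ((zt M) ^ j)‖ ^ 2 - l : ℝ) : ℂ)) *
          ((zt M) ^ j) ^ (-((l : ℤ) - 1))‖ := norm_sum_le _ _
      _ < ∑ j ∈ range M, (1 : ℝ) := by
          refine Finset.sum_lt_sum_of_nonempty (Finset.nonempty_range_iff.2 hM0) fun j _ => ?_
          have hn : ‖(zt M) ^ j‖ = 1 := by rw [norm_pow, zt_norm hM0, one_pow]
          rw [norm_mul, norm_zpow, hn, one_zpow, mul_one, Complex.norm_real, Real.norm_eq_abs]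
          exact hcon _ hn
      _ = M := by simp
  exact lt_irrefl _ h6

end Vale.Agent.P110
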