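import Vale.Agent.P110.Kron

namespace Vale.Agent.P110

open Finset Complex Filter Topology

/-- an ultraflat sequence: lengths tending to infinity, flat up to every `c > 0` eventually -/
def Ultraflat (a : ℕ → ℕ → ℝ) (N : ℕ → ℕ) : Prop :=
  Tendsto N atTop atTop ∧ ∀ c : ℝ, 0 < c → ∀ᶠ k in atTop, Flat (a k) (N k) c

variable {a b : ℕ → ℝ} {l m : ℕ} {c : ℝ}

theorem sq_bounds (h0 : 0 ≤ c) (h1 : c < 1) (hl : 0 < l) (ha : IsLittlewood a l)
    (h : Flat (kron l a b) (l * m) c) {z : ℂ} (hz : ‖z‖ = 1) :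
    (1 - c) ^ 2 * m ≤ ‖ev b m (z ^ l)‖ ^ 2 ∧ ‖ev b m (z ^ l)‖ ^ 2 ≤ (1 + c) ^ 2 * m := by
  have hp := parseval ha hl.ne' hz
  have hlR : (0 : ℝ) < l := by exact_mod_cast hl
  have key : ∀ j ∈ range l, (1 - c) ^ 2 * (l * m) ≤
      ‖ev a l ((zt l) ^ j * z)‖ ^ 2 * ‖ev b m (z ^ l)‖ ^ 2 ∧
      ‖ev a l ((zt l) ^ j * z)‖ ^ 2 * ‖ev b m (z ^ l)‖ ^ 2 ≤ (1 + c) ^ 2 * (l * m) := by
    intro j _
    have hn : ‖(zt l) ^ j * z‖ = 1 := by
      rw [norm_mul, norm_pow, zt_norm hl.ne', one_pow, hz, one_mul]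
    have h2 := h _ hn
    have he : ((zt l) ^ j * z) ^ l = z ^ l := by
      rw [mul_pow, ← pow_mul, mul_comm j l, pow_mul, (zt_prim hl.ne').pow_eq_one, one_pow, one_mul]
    rw [ev_kron hl, he, norm_mul] at h2
    have hs : Real.sqrt ((l * m : ℕ) : ℝ) ^ 2 = (l * m : ℝ) := by
      rw [Real.sq_sqrt (by positivity)]; push_cast; ring
    have hnn : 0 ≤ Real.sqrt ((l * m : ℕ) : ℝ) := Real.sqrt_nonneg _
    constructor
    · have := pow_le_pow_left₀ (mul_nonneg (by linarith) hnn) h2.1 2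
      rw [mul_pow, mul_pow, hs] at this
      exact this
    · have := pow_le_pow_left₀ (by positivity) h2.2 2
      rw [mul_pow, mul_pow, hs] at this
      exact this
  have s1 := Finset.sum_le_sum fun j hj => (key j hj).1
  have s2 := Finset.sum_le_sum fun j hj => (key j hj).2
  rw [Finset.sum_const, Finset.card_range, nsmul_eq_mul, ← Finset.sum_mul, hp] at s1
  rw [← Finset.sum_mul, hp, Finset.sum_const, Finset.card_range, nsmul_eq_mul] at s2
  have hl2 : (0 : ℝ) < (l : ℝ) ^ 2 := by positivity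
  constructor
  · refine le_of_mul_le_mul_left (a := (l : ℝ) ^ 2) ?_ hl2
    calc (l : ℝ) ^ 2 * ((1 - c) ^ 2 * m) = l * ((1 - c) ^ 2 * (l * m)) := by ring
      _ ≤ _ := s1
  · refine le_of_mul_le_mul_left (a := (l : ℝ) ^ 2) ?_ hl2
    calc (l : ℝ) ^ 2 * ‖ev b m (z ^ l)‖ ^ 2 ≤ l * ((1 + c) ^ 2 * (l * m)) := s2
      _ = _ := by ring

theorem exists_root (hl : 0 < l) {w : ℂ} (hw : ‖w‖ = 1) : ∃ z : ℂ, ‖z‖ = 1 ∧ z ^ l = w := by
  obtain ⟨z, hz⟩ := IsAlgClosed.exists_pow_nat_eq w hl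
  refine ⟨z, ?_, hz⟩
  have : ‖z‖ ^ l = 1 := by rw [← norm_pow, hz, hw]
  exact (pow_eq_one_iff_of_nonneg (norm_nonneg _) hl.ne').1 this

/-- the second factor is flat with the same constant -/
theorem flat_right (h0 : 0 ≤ c) (h1 : c < 1) (hl : 0 < l) (ha : IsLittlewood a l)
    (h : Flat (kron l a b) (l * m) c) : Flat b m c := by
  intro w hw
  obtain ⟨z, hz, rfl⟩ := exists_root hl hw
  obtain ⟨k1, k2⟩ := sq_bounds h0 h1 hl ha h hz
  have hs : Real.sqrt (m : ℝ) ^ 2 = m := Real.sq_sqrt (by positivity)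
  constructor
  · refine (pow_le_pow_iff_left₀ (mul_nonneg (by linarith) (Real.sqrt_nonneg _))
      (norm_nonneg _) two_ne_zero).1 ?_
    rw [mul_pow, hs]; exact k1
  · refine (pow_le_pow_iff_left₀ (norm_nonneg _) (mul_nonneg (by linarith)
      (Real.sqrt_nonneg _)) two_ne_zero).1 ?_
    rw [mul_pow, hs]; exact k2

/-- the first factor is nearly flat -/
theorem flat_left (h0 : 0 ≤ c) (h1 : c < 1) (hl : 0 < l) (hm : 0 < m) (ha : IsLittlewood a l)
    (h : Flat (kron l a b) (l * m) c) {z : ℂ} (hz : ‖z‖ = 1) :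
    (1 - c) / (1 + c) * Real.sqrt l ≤ ‖ev a l z‖ ∧
      ‖ev a l z‖ ≤ (1 + c) / (1 - c) * Real.sqrt l := by
  have hB := flat_right h0 h1 hl ha h (z ^ l) (by rw [norm_pow, hz, one_pow])
  have hP := h z hz
  rw [ev_kron hl, norm_mul] at hP
  have hs : Real.sqrt ((l * m : ℕ) : ℝ) = Real.sqrt l * Real.sqrt m := by
    push_cast
    rw [Real.sqrt_mul (by positivity)]
  rw [hs] at hP
  have hsm : 0 < Real.sqrt m := Real.sqrt_pos.2 (by exact_mod_cast hm)
  have hsl : 0 < Real.sqrt l := Real.sqrt_pos.2 (by exact_mod_cast hl)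
  set B := ‖ev b m (z ^ l)‖
  set A := ‖ev a l z‖
  have hA : 0 ≤ A := norm_nonneg _
  have c1 : 0 < 1 - c := by linarith
  have c2 : 0 < 1 + c := by linarith
  constructor
  · rw [div_mul_eq_mul_div, div_le_iff₀ c2]
    have : (1 - c) * (Real.sqrt l * Real.sqrt m) ≤ A * ((1 + c) * Real.sqrt m) :=
      hP.1.trans (mul_le_mul_of_nonneg_left hB.2 hA)
    have h' : ((1 - c) * Real.sqrt l) * Real.sqrt m ≤ (A * (1 + c)) * Real.sqrt m := by
      linarith
    exact le_of_mul_le_mul_right h' hsm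
  · rw [div_mul_eq_mul_div, le_div_iff₀ c1]
    have : A * ((1 - c) * Real.sqrt m) ≤ (1 + c) * (Real.sqrt l * Real.sqrt m) :=
      (mul_le_mul_of_nonneg_left hB.1 hA).trans hP.2
    have h' : (A * (1 - c)) * Real.sqrt m ≤ ((1 + c) * Real.sqrt l) * Real.sqrt m := by
      linarith
    exact le_of_mul_le_mul_right h' hsm

theorem length_bound {κ : ℝ} (hκ : 1 ≤ κ) (hl : 2 ≤ l) (ha : IsLittlewood a l)
    (h : ∀ z : ℂ, ‖z‖ = 1 → κ⁻¹ * Real.sqrt l ≤ ‖ev a l z‖ ∧ ‖ev a l z‖ ≤ κ * Real.sqrt l) :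
    1 ≤ (κ ^ 2 - 1) * l := by
  obtain ⟨z, hz, hz1⟩ := not_const ha hl
  obtain ⟨k1, k2⟩ := h z hz
  have hs : Real.sqrt (l : ℝ) ^ 2 = l := Real.sq_sqrt (by positivity)
  have hlR : (0 : ℝ) ≤ l := by positivity
  have q2 : ‖ev a l z‖ ^ 2 ≤ κ ^ 2 * l := by
    have := pow_le_pow_left₀ (norm_nonneg _) k2 2
    rwa [mul_pow, hs] at this
  have q1 : (κ⁻¹) ^ 2 * l ≤ ‖ev a l z‖ ^ 2 := by
    have := pow_le_pow_left₀ (by positivity) k1 2
    rwa [mul_pow, hs] at this
  have q3 : 2 - κ ^ 2 ≤ (κ⁻¹) ^ 2 := by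
    have hk : 0 < κ ^ 2 := by positivity
    rw [inv_pow, ← sub_nonneg]
    have : (κ ^ 2)⁻¹ - (2 - κ ^ 2) = (κ ^ 2 - 1) ^ 2 / κ ^ 2 := by
      field_simp
      ring
    rw [this]
    positivity
  have q4 := mul_le_mul_of_nonneg_right q3 hlR
  rcases le_total 0 (‖ev a l z‖ ^ 2 - l) with h' | h'
  · rw [abs_of_nonneg h'] at hz1
    nlinarith
  · rw [abs_of_nonpos h'] at hz1
    nlinarith

theorem kron_bounds (h0 : 0 ≤ c) (h1 : c < 1) (hl : 2 ≤ l) (hm : 2 ≤ m) (ha : IsLittlewood a l)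
    (hb : IsLittlewood b m) (h : Flat (kron l a b) (l * m) c) :
    1 ≤ (((1 + c) / (1 - c)) ^ 2 - 1) * l ∧ 1 ≤ (((1 + c) / (1 - c)) ^ 2 - 1) * m := by
  have c1 : 0 < 1 - c := by linarith
  have c2 : 0 < 1 + c := by linarith
  have hκ : 1 ≤ (1 + c) / (1 - c) := by rw [le_div_iff₀ c1]; linarith
  constructor
  · refine length_bound hκ hl ha fun z hz => ?_
    rw [inv_div]
    exact flat_left h0 h1 (by omega) (by omega) ha h hz
  · refine length_bound hκ hm hb fun z hz => ?_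
    obtain ⟨k1, k2⟩ := flat_right h0 h1 (by omega) ha h z hz
    have hs : 0 ≤ Real.sqrt (m : ℝ) := Real.sqrt_nonneg _
    rw [inv_div]
    constructor
    · refine le_trans (mul_le_mul_of_nonneg_right ?_ hs) k1
      rw [div_le_iff₀ c2]
      nlinarith
    · refine k2.trans (mul_le_mul_of_nonneg_right ?_ hs)
      rw [le_div_iff₀ c1]
      nlinarith

/-- lengths must tend to infinity -/
theorem tendsto_length {l : ℕ → ℕ}
    (h : ∀ c : ℝ, 0 < c → c < 1 → ∀ᶠ k in atTop, 1 ≤ (((1 + c) / (1 - c)) ^ 2 - 1) * l k) :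
    Tendsto l atTop atTop := by
  rw [tendsto_atTop]
  intro L
  set c : ℝ := 1 / (16 * (L + 1)) with hc
  have hL : (0 : ℝ) ≤ L := by positivity
  have c0 : 0 < c := by positivity
  have c1 : c ≤ 1 / 16 := by
    rw [hc]
    exact one_div_le_one_div_of_le (by norm_num) (by linarith)
  filter_upwards [h c c0 (by linarith)] with k hk
  by_contra hcon
  push Not at hcon
  have hlk : (l k : ℝ) ≤ L := by exact_mod_cast hcon.le
  have d1 : 0 < 1 - c := by linarith
  have e1 : ((1 + c) / (1 - c)) ^ 2 - 1 ≤ 8 * c := by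
    rw [div_pow, sub_le_iff_le_add, div_le_iff₀ (by positivity)]
    have q : 0 ≤ c * (4 - 16 * c + 8 * c ^ 2) := mul_nonneg c0.le (by nlinarith [sq_nonneg c])
    nlinarith
  have e2 : (((1 + c) / (1 - c)) ^ 2 - 1) * l k ≤ 8 * c * L :=
    mul_le_mul e1 hlk (by positivity) (by positivity)
  have e3 : 8 * c * L < 1 := by
    rw [hc]
    have : 8 * (1 / (16 * ((L : ℝ) + 1))) * L = L / (2 * (L + 1)) := by
      field_simp
      ring
    rw [this, div_lt_one (by positivity)]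
    linarith
  linarith

theorem ultraflat_factors {a b : ℕ → ℕ → ℝ} {l m : ℕ → ℕ}
    (ha : ∀ k, IsLittlewood (a k) (l k)) (hb : ∀ k, IsLittlewood (b k) (m k))
    (hl : ∀ k, 2 ≤ l k) (hm : ∀ k, 2 ≤ m k)
    (h : Ultraflat (fun k => kron (l k) (a k) (b k)) (fun k => l k * m k)) :
    Ultraflat a l ∧ Ultraflat b m := by
  have hev : ∀ c : ℝ, 0 < c → c < 1 → ∀ᶠ k in atTop,
      Flat (kron (l k) (a k) (b k)) (l k * m k) c := fun c h0 _ => h.2 c h0
  refine ⟨⟨?_, ?_⟩, ?_, ?_⟩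
  · refine tendsto_length fun c h0 h1 => ?_
    filter_upwards [hev c h0 h1] with k hk
    exact (kron_bounds h0.le h1 (hl k) (hm k) (ha k) (hb k) hk).1
  · intro c h0
    set d := min (c / 4) (1 / 4) with hd
    have d0 : 0 < d := by positivity
    have d1 : d ≤ 1 / 4 := min_le_right _ _
    have d2 : d ≤ c / 4 := min_le_left _ _
    filter_upwards [hev d d0 (by linarith)] with k hk
    intro z hz
    obtain ⟨k1, k2⟩ := flat_left d0.le (by linarith) (by have := hl k; omega)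
      (by have := hm k; omega) (ha k) hk hz
    have hs : 0 ≤ Real.sqrt (l k : ℝ) := Real.sqrt_nonneg _
    constructor
    · refine le_trans (mul_le_mul_of_nonneg_right ?_ hs) k1
      rw [le_div_iff₀ (by linarith)]
      nlinarith
    · refine k2.trans (mul_le_mul_of_nonneg_right ?_ hs)
      rw [div_le_iff₀ (by linarith)]
      nlinarith
  · refine tendsto_length fun c h0 h1 => ?_
    filter_upwards [hev c h0 h1] with k hk
    exact (kron_bounds h0.le h1 (hl k) (hm k) (ha k) (hb k) hk).2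
  · intro c h0
    set d := min c (1 / 4) with hd
    have d0 : 0 < d := by positivity
    have d1 : d ≤ 1 / 4 := min_le_right _ _
    have d2 : d ≤ c := min_le_left _ _
    filter_upwards [hev d d0 (by linarith)] with k hk
    intro z hz
    obtain ⟨k1, k2⟩ := flat_right d0.le (by linarith) (by have := hl k; omega) (ha k) hk z hz
    have hs : 0 ≤ Real.sqrt (m k : ℝ) := Real.sqrt_nonneg _
    exact ⟨le_trans (mul_le_mul_of_nonneg_right (by linarith) hs) k1,
      k2.trans (mul_le_mul_of_nonneg_right (by linarith) hs)⟩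

end Vale.Agent.P110
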